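import Vale.Agent.P236Xf.D9n2
import Vale.Agent.P236Xd.Zs10

/-!
# P236 : a part of the check of the data
-/

namespace Vale.Agent.P236X

set_option maxRecDepth 100000 in
set_option maxHeartbeats 400000 in
theorem df10n1 : P236N.dfU L10 gs10 94 Zs10 10 [0, 3, 7, 9, 10, 11, 17, 18, 19, 20, 22, 24, 25, 27, 28, 29, 30, 34, 36, 37, 38, 39, 40, 44, 46, 47, 69, 70, 71, 72, 74, 78, 80, 81, 82, 83, 84, 85, 87, 88, 90, 95, 98, 100, 128, 130, 132, 135, 137, 138, 139, 143, 144, 146, 147, 149, 152, 153, 192, 193, 197, 201, 204, 256, 258, 260, 261, 263, 264, 321, 325, 326, 327, 515, 519, 521, 576, 577, 578, 579, 580, 582, 583, 584, 640, 641, 642, 704] = true := by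
  decide +kernel

end Vale.Agent.P236X
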