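import Vale.Agent.P236Xf.D10n1
import Vale.Agent.P236Xd.Zs11

/-!
# P236 : a part of the check of the data
-/

namespace Vale.Agent.P236X

set_option maxRecDepth 100000 in
set_option maxHeartbeats 400000 in
theorem df11n1 : P236N.dfU L11 gs11 94 Zs11 11 [1, 2, 6, 7, 8, 9, 12, 14, 15, 16, 18, 19, 20, 22, 23, 25, 26, 27, 28, 30, 33, 35, 36, 37, 40, 41, 43, 64, 65, 66, 76, 79, 80, 81, 82, 83, 90, 93, 94, 96, 98, 99, 100, 130, 131, 132, 133, 134, 135, 136, 137, 140, 141, 142, 143, 146, 147, 149, 192, 197, 203, 204, 256, 259, 321, 322, 323, 325, 326, 384, 512, 514, 517, 518, 521, 576, 577, 580, 581, 582, 583, 585, 640, 643, 645] = true := by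
  decide +kernel

end Vale.Agent.P236X
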