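import Vale.Agent.P236Xf.D11n1
import Vale.Agent.P236Xd.Zs12

/-!
# P236 : a part of the check of the data
-/

namespace Vale.Agent.P236X

set_option maxRecDepth 100000 in
set_option maxHeartbeats 400000 in
theorem df12n1 : P236N.dfU L12 gs12 94 Zs12 12 [1, 3, 4, 7, 9, 10, 11, 14, 16, 18, 19, 20, 23, 26, 28, 29, 30, 33, 34, 35, 36, 38, 40, 65, 68, 69, 71, 77, 78, 79, 80, 84, 87, 88, 89, 91, 93, 94, 95, 96, 128, 130, 132, 133, 137, 138, 139, 143, 144, 145, 146, 148, 192, 193, 194, 196, 197, 198, 200, 202, 256, 263, 320, 321, 323, 325, 512, 516, 517, 518, 577, 580, 584, 585, 641, 643] = true := by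
  decide +kernel

end Vale.Agent.P236X
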