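import Vale.Agent.P236Xf.D1n0
import Vale.Agent.P236Xd.Zs2

/-!
# P236 : a part of the check of the data
-/

namespace Vale.Agent.P236X

set_option maxRecDepth 100000 in
set_option maxHeartbeats 400000 in
theorem df2n1 : P236N.dfU L2 gs2 94 Zs2 2 [9, 10, 69, 74, 135, 194, 197, 264, 265, 384, 387, 515, 516, 519, 521, 581, 582, 585, 640, 641, 647, 704, 706, 708] = true := by
  decide +kernel

end Vale.Agent.P236X
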