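import Vale.Agent.P236Xf.D2n0
import Vale.Agent.P236Xd.Zs2

/-!
# P236 : a part of the check of the data
-/

namespace Vale.Agent.P236X

set_option maxRecDepth 100000 in
set_option maxHeartbeats 400000 in
theorem df2n2 : P236N.dfU L2 gs2 94 Zs2 2 [2, 8, 13, 15, 67, 73, 75, 130, 132, 137, 138, 257, 259, 260, 263, 321, 386, 448, 520, 580, 583, 646, 1024, 1028] = true := by
  decide +kernel

end Vale.Agent.P236X
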