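import Vale.Agent.P236Xf.D2n1
import Vale.Agent.P236Xd.Zs2

/-!
# P236 : a part of the check of the data
-/

namespace Vale.Agent.P236X

set_option maxRecDepth 100000 in
set_option maxHeartbeats 400000 in
theorem df2n3 : P236N.dfU L2 gs2 94 Zs2 2 [1, 5, 11, 12, 72, 136, 193, 196, 199, 256, 322, 512, 517, 518, 522, 576, 579, 643, 645, 648, 1025, 1026, 1027] = true := by
  decide +kernel

end Vale.Agent.P236X
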