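import Vale.Agent.P236Xf.D2n2
import Vale.Agent.P236Xd.Zs2

/-!
# P236 : a part of the check of the data
-/

namespace Vale.Agent.P236X

set_option maxRecDepth 100000 in
set_option maxHeartbeats 400000 in
theorem df2n4 : P236N.dfU L2 gs2 94 Zs2 2 [6, 7, 64, 65, 70, 71, 128, 131, 134, 139, 201, 202, 261, 262, 323, 327, 328, 385, 388, 389, 514, 578, 584, 644, 709] = true := by
  decide +kernel

end Vale.Agent.P236X
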