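import Vale.Agent.P236Xf.D2n0
import Vale.Agent.P236Xf.D2n1
import Vale.Agent.P236Xf.D2n2
import Vale.Agent.P236Xf.D2n3
import Vale.Agent.P236Xf.D2n4
import Vale.Agent.P236N.DcG

/-!
# P236 : the data of one level
-/

namespace Vale.Agent.P236X

set_option maxRecDepth 100000 in
theorem dat2 : DatOK L2 94 2 Zs2 :=
  P236N.datOK_f (P236N.dfU_append df2n0 (P236N.dfU_append df2n1 (P236N.dfU_append df2n2 (P236N.dfU_append df2n3 (P236N.dfU_append df2n4 P236N.dfU_nil))))) (by decide +kernel)

end Vale.Agent.P236X
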