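import Vale.Agent.P236Xf.D2n4
import Vale.Agent.P236Xd.Zs3

/-!
# P236 : a part of the check of the data
-/

namespace Vale.Agent.P236X

set_option maxRecDepth 100000 in
set_option maxHeartbeats 400000 in
theorem df3n1 : P236N.dfU L3 gs3 94 Zs3 3 [3, 5, 6, 8, 12, 18, 30, 67, 69, 72, 75, 131, 141, 192, 193, 195, 196, 201, 202, 203, 205, 209, 259, 262, 267, 271, 321, 326, 329, 514, 515, 517, 519, 520, 524, 578, 581, 583, 586, 640, 649, 704, 706, 707, 1025, 1026] = true := by
  decide +kernel

end Vale.Agent.P236X
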