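import Vale.Agent.P236Xf.D3n0
import Vale.Agent.P236Xd.Zs3

/-!
# P236 : a part of the check of the data
-/

namespace Vale.Agent.P236X

set_option maxRecDepth 100000 in
set_option maxHeartbeats 400000 in
theorem df3n2 : P236N.dfU L3 gs3 94 Zs3 3 [1, 9, 13, 15, 17, 21, 25, 26, 27, 28, 29, 31, 64, 73, 80, 87, 128, 132, 133, 134, 136, 140, 142, 144, 145, 194, 197, 199, 200, 208, 257, 265, 270, 325, 387, 388, 525, 576, 577, 580, 585, 591, 641, 647, 705, 709, 1024] = true := by
  decide +kernel

end Vale.Agent.P236X
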