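import Vale.Agent.P236Xf.D3n1
import Vale.Agent.P236Xd.Zs3

/-!
# P236 : a part of the check of the data
-/

namespace Vale.Agent.P236X

set_option maxRecDepth 100000 in
set_option maxHeartbeats 400000 in
theorem df3n3 : P236N.dfU L3 gs3 94 Zs3 3 [0, 2, 7, 10, 11, 19, 23, 65, 71, 76, 77, 78, 82, 83, 129, 138, 146, 198, 207, 210, 256, 258, 260, 261, 268, 320, 323, 324, 384, 385, 386, 389, 512, 521, 522, 526, 527, 529, 579, 582, 584, 642, 643, 644, 645, 650, 1027] = true := by
  decide +kernel

end Vale.Agent.P236X
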