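import Vale.Agent.P236Xf.D3n3
import Vale.Agent.P236Xd.Zs4

/-!
# P236 : a part of the check of the data
-/

namespace Vale.Agent.P236X

set_option maxRecDepth 100000 in
set_option maxHeartbeats 400000 in
theorem df4n1 : P236N.dfU L4 gs4 94 Zs4 4 [2, 5, 11, 16, 26, 30, 34, 35, 67, 69, 70, 74, 77, 83, 84, 94, 129, 132, 152, 154, 194, 195, 204, 211, 268, 272, 320, 323, 327, 386, 514, 519, 522, 526, 528, 529, 533, 584, 585, 587, 588, 646, 1026, 1027] = true := by
  decide +kernel

end Vale.Agent.P236X
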