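import Vale.Agent.P236Xf.D4n0
import Vale.Agent.P236Xd.Zs4

/-!
# P236 : a part of the check of the data
-/

namespace Vale.Agent.P236X

set_option maxRecDepth 100000 in
set_option maxHeartbeats 400000 in
theorem df4n2 : P236N.dfU L4 gs4 94 Zs4 4 [6, 7, 15, 18, 29, 32, 33, 37, 40, 42, 71, 80, 85, 87, 91, 95, 128, 139, 140, 143, 144, 196, 197, 201, 202, 203, 207, 257, 259, 263, 264, 265, 271, 322, 325, 387, 518, 583, 589, 641, 704, 705, 706, 708] = true := by
  decide +kernel

end Vale.Agent.P236X
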