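import Vale.Agent.P236Xf.D4n1
import Vale.Agent.P236Xd.Zs4

/-!
# P236 : a part of the check of the data
-/

namespace Vale.Agent.P236X

set_option maxRecDepth 100000 in
set_option maxHeartbeats 400000 in
theorem df4n3 : P236N.dfU L4 gs4 94 Zs4 4 [1, 3, 8, 10, 14, 25, 28, 31, 43, 66, 68, 75, 79, 82, 88, 89, 90, 93, 131, 133, 141, 145, 148, 153, 192, 210, 212, 256, 270, 321, 328, 389, 515, 524, 532, 576, 577, 582, 590, 642, 644, 645, 649, 1024] = true := by
  decide +kernel

end Vale.Agent.P236X
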