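import Vale.Agent.P236Xf.D4n2
import Vale.Agent.P236Xd.Zs4

/-!
# P236 : a part of the check of the data
-/

namespace Vale.Agent.P236X

set_option maxRecDepth 100000 in
set_option maxHeartbeats 400000 in
theorem df4n4 : P236N.dfU L4 gs4 94 Zs4 4 [4, 12, 13, 20, 23, 27, 39, 41, 64, 72, 76, 78, 86, 92, 130, 135, 136, 137, 142, 149, 193, 198, 206, 209, 213, 258, 260, 261, 267, 269, 273, 329, 385, 388, 517, 525, 527, 580, 581, 591, 593, 640, 647, 707] = true := by
  decide +kernel

end Vale.Agent.P236X
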