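import Vale.Agent.P236Xf.D4n4
import Vale.Agent.P236Xd.Zs5

/-!
# P236 : a part of the check of the data
-/

namespace Vale.Agent.P236X

set_option maxRecDepth 100000 in
set_option maxHeartbeats 400000 in
theorem df5n1 : P236N.dfU L5 gs5 94 Zs5 5 [5, 9, 12, 14, 27, 39, 43, 44, 46, 49, 66, 69, 73, 76, 78, 79, 81, 84, 92, 134, 136, 137, 139, 149, 150, 154, 198, 199, 211, 260, 261, 263, 266, 268, 269, 270, 321, 326, 329, 513, 516, 520, 523, 524, 526, 528, 529, 532, 578, 580, 585, 587, 592, 647, 1024, 1025, 1026, 1027] = true := by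
  decide +kernel

end Vale.Agent.P236X
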