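import Vale.Agent.P236Xf.D5n0
import Vale.Agent.P236Xd.Zs5

/-!
# P236 : a part of the check of the data
-/

namespace Vale.Agent.P236X

set_option maxRecDepth 100000 in
set_option maxHeartbeats 400000 in
theorem df5n2 : P236N.dfU L5 gs5 94 Zs5 5 [0, 2, 3, 8, 13, 17, 19, 25, 30, 38, 41, 45, 64, 71, 77, 83, 85, 87, 88, 94, 98, 128, 129, 132, 146, 153, 193, 195, 196, 203, 205, 208, 210, 213, 214, 259, 264, 265, 273, 320, 385, 512, 515, 521, 525, 576, 577, 579, 581, 582, 584, 593, 642, 645, 648, 704, 706] = true := by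
  decide +kernel

end Vale.Agent.P236X
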