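import Vale.Agent.P236Xf.D5n1
import Vale.Agent.P236Xd.Zs5

/-!
# P236 : a part of the check of the data
-/

namespace Vale.Agent.P236X

set_option maxRecDepth 100000 in
set_option maxHeartbeats 400000 in
theorem df5n3 : P236N.dfU L5 gs5 94 Zs5 5 [6, 10, 11, 16, 18, 20, 26, 29, 34, 40, 42, 48, 65, 70, 74, 80, 82, 86, 90, 93, 95, 99, 133, 135, 140, 141, 145, 147, 148, 152, 155, 197, 201, 204, 206, 207, 209, 258, 262, 267, 272, 274, 324, 327, 328, 384, 388, 514, 517, 522, 530, 531, 533, 589, 590, 640, 644, 707] = true := by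
  decide +kernel

end Vale.Agent.P236X
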