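import Vale.Agent.P236Xf.D5n3
import Vale.Agent.P236Xd.Zs6

/-!
# P236 : a part of the check of the data
-/

namespace Vale.Agent.P236X

set_option maxRecDepth 100000 in
set_option maxHeartbeats 400000 in
theorem df6n1 : P236N.dfU L6 gs6 94 Zs6 6 [0, 4, 6, 7, 12, 15, 18, 20, 23, 24, 29, 31, 36, 39, 45, 66, 67, 73, 75, 78, 81, 84, 85, 86, 87, 88, 90, 97, 130, 138, 139, 145, 194, 197, 198, 199, 202, 208, 257, 258, 259, 260, 261, 264, 265, 268, 269, 320, 322, 323, 324, 325, 326, 385, 386, 387, 514, 516, 518, 520, 525, 527, 529, 530, 577, 641, 644, 645, 648, 704, 1025] = true := by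
  decide +kernel

end Vale.Agent.P236X
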