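import Vale.Agent.P236Xf.D6n0
import Vale.Agent.P236Xd.Zs6

/-!
# P236 : a part of the check of the data
-/

namespace Vale.Agent.P236X

set_option maxRecDepth 100000 in
set_option maxHeartbeats 400000 in
theorem df6n2 : P236N.dfU L6 gs6 94 Zs6 6 [2, 3, 9, 10, 11, 16, 22, 27, 33, 35, 37, 40, 41, 47, 48, 49, 64, 65, 69, 70, 72, 74, 79, 82, 83, 94, 98, 131, 134, 136, 140, 142, 144, 147, 148, 149, 151, 152, 153, 200, 201, 203, 204, 205, 206, 210, 211, 256, 262, 263, 266, 270, 328, 513, 522, 523, 526, 528, 576, 578, 580, 581, 583, 584, 587, 589, 590, 640, 643, 1026] = true := by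
  decide +kernel

end Vale.Agent.P236X
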