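import Vale.Agent.P236Xf.D6n2
import Vale.Agent.P236Xd.Zs7

/-!
# P236 : a part of the check of the data
-/

namespace Vale.Agent.P236X

set_option maxRecDepth 100000 in
set_option maxHeartbeats 400000 in
theorem df7n1 : P236N.dfU L7 gs7 94 Zs7 7 [0, 3, 6, 8, 11, 14, 15, 18, 27, 29, 30, 31, 34, 37, 38, 39, 40, 41, 43, 64, 66, 68, 69, 70, 75, 77, 89, 94, 129, 130, 131, 133, 141, 143, 197, 200, 205, 256, 258, 261, 264, 320, 325, 326, 327, 329, 512, 514, 520, 521, 523, 578, 580, 582, 583, 586, 640, 648, 704, 705, 1025, 1026] = true := by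
  decide +kernel

end Vale.Agent.P236X
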