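import Vale.Agent.P236Xf.D7n0
import Vale.Agent.P236Xd.Zs7

/-!
# P236 : a part of the check of the data
-/

namespace Vale.Agent.P236X

set_option maxRecDepth 100000 in
set_option maxHeartbeats 400000 in
theorem df7n2 : P236N.dfU L7 gs7 94 Zs7 7 [7, 9, 13, 16, 19, 20, 22, 24, 26, 28, 33, 35, 45, 65, 71, 72, 74, 78, 79, 82, 84, 86, 87, 90, 93, 95, 96, 132, 134, 135, 136, 146, 148, 193, 198, 201, 202, 203, 204, 257, 260, 263, 266, 267, 323, 385, 387, 513, 515, 516, 525, 526, 576, 579, 581, 584, 587, 641, 642, 645, 647, 706] = true := by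
  decide +kernel

end Vale.Agent.P236X
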