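import Vale.Agent.P236Xf.D7n2
import Vale.Agent.P236Xd.Zs8

/-!
# P236 : a part of the check of the data
-/

namespace Vale.Agent.P236X

set_option maxRecDepth 100000 in
set_option maxHeartbeats 400000 in
theorem df8n1 : P236N.dfU L8 gs8 94 Zs8 8 [4, 5, 9, 13, 14, 16, 17, 18, 19, 21, 23, 24, 30, 33, 35, 37, 39, 41, 45, 65, 67, 73, 81, 83, 85, 86, 88, 93, 95, 134, 138, 140, 141, 142, 146, 150, 195, 197, 199, 201, 202, 203, 205, 256, 321, 328, 386, 512, 514, 524, 525, 577, 579, 582, 583, 586, 643, 644, 647, 1025] = true := by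
  decide +kernel

end Vale.Agent.P236X
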