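import Vale.Agent.P236Xf.D8n0
import Vale.Agent.P236Xd.Zs8

/-!
# P236 : a part of the check of the data
-/

namespace Vale.Agent.P236X

set_option maxRecDepth 100000 in
set_option maxHeartbeats 400000 in
theorem df8n2 : P236N.dfU L8 gs8 94 Zs8 8 [0, 1, 2, 3, 6, 7, 11, 25, 27, 31, 32, 34, 38, 40, 44, 66, 69, 71, 74, 77, 78, 87, 90, 92, 94, 128, 129, 130, 131, 132, 135, 145, 147, 151, 152, 193, 200, 204, 260, 261, 262, 263, 264, 265, 323, 325, 326, 384, 385, 515, 517, 518, 520, 521, 576, 585, 640, 642, 648] = true := by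
  decide +kernel

end Vale.Agent.P236X
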