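import Vale.Agent.P236Xf.D8n2
import Vale.Agent.P236Xd.Zs9

/-!
# P236 : a part of the check of the data
-/

namespace Vale.Agent.P236X

set_option maxRecDepth 100000 in
set_option maxHeartbeats 400000 in
theorem df9n1 : P236N.dfU L9 gs9 94 Zs9 9 [0, 6, 8, 10, 14, 18, 28, 36, 38, 40, 41, 42, 43, 64, 65, 68, 69, 70, 71, 72, 75, 77, 80, 81, 85, 87, 88, 89, 93, 95, 97, 128, 130, 137, 145, 154, 192, 193, 194, 195, 198, 205, 256, 263, 321, 322, 327, 384, 517, 519, 520, 523, 578, 581, 583, 585, 643, 645, 647, 1024] = true := by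
  decide +kernel

end Vale.Agent.P236X
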