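import Vale.Agent.P236Xf.D9n0
import Vale.Agent.P236Xd.Zs9

/-!
# P236 : a part of the check of the data
-/

namespace Vale.Agent.P236X

set_option maxRecDepth 100000 in
set_option maxHeartbeats 400000 in
theorem df9n2 : P236N.dfU L9 gs9 94 Zs9 9 [1, 5, 7, 9, 12, 16, 20, 21, 23, 25, 30, 32, 34, 37, 44, 45, 46, 47, 73, 74, 79, 82, 86, 90, 92, 94, 96, 98, 132, 133, 134, 136, 138, 139, 141, 142, 144, 146, 148, 150, 151, 153, 196, 197, 200, 201, 202, 203, 257, 259, 260, 261, 320, 385, 513, 521, 582, 642, 644, 704] = true := by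
  decide +kernel

end Vale.Agent.P236X
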