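import Vale.Agent.P236N.DcF
import Vale.Agent.P236Xd.Zs0

/-!
# P236 : a part of the check of the data
-/

namespace Vale.Agent.P236X

set_option maxRecDepth 100000 in
set_option maxHeartbeats 400000 in
theorem df0n0 : P236N.dfU L0 gs0 94 Zs0 0 [0, 64, 128, 192, 256, 320, 384, 448, 512, 576, 640, 704, 768, 1024, 1088] = true := by
  decide +kernel

end Vale.Agent.P236X
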