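import Vale.Agent.P236Xf.D9n1
import Vale.Agent.P236Xd.Zs10

/-!
# P236 : a part of the check of the data
-/

namespace Vale.Agent.P236X

set_option maxRecDepth 100000 in
set_option maxHeartbeats 400000 in
theorem df10n0 : P236N.dfU L10 gs10 94 Zs10 10 [1, 2, 4, 5, 6, 8, 12, 13, 14, 15, 16, 21, 23, 26, 31, 32, 33, 35, 41, 42, 43, 45, 64, 65, 66, 67, 68, 73, 75, 76, 77, 79, 86, 89, 91, 92, 93, 94, 96, 97, 99, 129, 131, 133, 134, 136, 140, 141, 142, 145, 148, 150, 151, 194, 195, 196, 198, 199, 200, 202, 203, 205, 257, 259, 262, 265, 320, 322, 323, 324, 384, 512, 513, 514, 516, 517, 518, 520, 522, 523, 524, 525, 581, 585, 643, 644, 645, 646] = true := by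
  decide +kernel

end Vale.Agent.P236X
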