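import Vale.Agent.P236Xf.D10n0
import Vale.Agent.P236Xd.Zs11

/-!
# P236 : a part of the check of the data
-/

namespace Vale.Agent.P236X

set_option maxRecDepth 100000 in
set_option maxHeartbeats 400000 in
theorem df11n0 : P236N.dfU L11 gs11 94 Zs11 11 [0, 3, 4, 5, 10, 11, 13, 17, 21, 24, 29, 31, 32, 34, 38, 39, 42, 44, 45, 67, 68, 69, 70, 71, 72, 73, 74, 75, 77, 78, 84, 85, 86, 87, 88, 89, 91, 92, 95, 97, 128, 129, 138, 139, 144, 145, 148, 150, 151, 193, 194, 195, 196, 198, 199, 200, 201, 202, 257, 258, 260, 261, 262, 263, 264, 265, 320, 324, 513, 515, 516, 519, 520, 522, 523, 524, 578, 579, 584, 641, 642, 644] = true := by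
  decide +kernel

end Vale.Agent.P236X
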