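import Vale.Agent.P236Xf.D11n0
import Vale.Agent.P236Xd.Zs12

/-!
# P236 : a part of the check of the data
-/

namespace Vale.Agent.P236X

set_option maxRecDepth 100000 in
set_option maxHeartbeats 400000 in
theorem df12n0 : P236N.dfU L12 gs12 94 Zs12 12 [0, 2, 5, 6, 8, 12, 13, 15, 17, 21, 22, 24, 25, 27, 31, 32, 37, 39, 64, 66, 67, 70, 72, 73, 74, 75, 76, 81, 82, 83, 85, 86, 90, 92, 97, 129, 131, 134, 135, 136, 140, 141, 142, 147, 195, 199, 201, 203, 204, 257, 258, 259, 260, 261, 262, 264, 265, 322, 324, 513, 514, 515, 519, 520, 521, 522, 523, 576, 578, 579, 581, 582, 583, 640, 642, 644, 645] = true := by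
  decide +kernel

end Vale.Agent.P236X
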