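import Vale.Agent.P236Xf.D12n0
import Vale.Agent.P236Xd.Zs13

/-!
# P236 : a part of the check of the data
-/

namespace Vale.Agent.P236X

set_option maxRecDepth 100000 in
set_option maxHeartbeats 400000 in
theorem df13n0 : P236N.dfU L13 gs13 94 Zs13 13 [1, 2, 4, 5, 9, 11, 14, 17, 18, 19, 23, 24, 29, 32, 65, 67, 69, 70, 73, 74, 76, 78, 80, 81, 82, 83, 85, 87, 91, 129, 130, 131, 132, 133, 135, 136, 137, 138, 139, 141, 142, 143, 144, 145, 192, 194, 198, 202, 203, 256, 258, 260, 261, 320, 321, 514, 516, 520, 522, 523, 577, 578, 580, 581, 583, 584, 641, 642, 644] = true := by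
  decide +kernel

end Vale.Agent.P236X
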