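import Vale.Agent.P236Xf.D12n1
import Vale.Agent.P236Xd.Zs13

/-!
# P236 : a part of the check of the data
-/

namespace Vale.Agent.P236X

set_option maxRecDepth 100000 in
set_option maxHeartbeats 400000 in
theorem df13n1 : P236N.dfU L13 gs13 94 Zs13 13 [0, 3, 6, 7, 8, 10, 12, 13, 15, 16, 20, 21, 22, 25, 26, 27, 28, 30, 31, 33, 34, 64, 66, 68, 71, 72, 75, 77, 79, 84, 86, 88, 89, 90, 92, 128, 134, 140, 146, 147, 193, 195, 196, 197, 199, 200, 201, 257, 259, 262, 263, 264, 265, 322, 323, 324, 512, 513, 515, 517, 518, 519, 521, 576, 579, 582, 585, 640, 643] = true := by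
  decide +kernel

end Vale.Agent.P236X
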