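import Vale.Agent.P236N.DcF
import Vale.Agent.P236Xd.Zs1

/-!
# P236 : a part of the check of the data
-/

namespace Vale.Agent.P236X

set_option maxRecDepth 100000 in
set_option maxHeartbeats 400000 in
theorem df1n0 : P236N.dfU L1 gs1 94 Zs1 1 [0, 1, 2, 3, 4, 64, 65, 66, 67, 68, 128, 129, 130, 131, 192, 193, 194, 195, 256, 257, 258, 259, 320, 321, 322, 323, 384, 385, 386, 448, 449, 512, 513, 514, 515, 576, 577, 578, 579, 640, 641, 642, 643, 704, 705, 706, 768, 1024, 1025, 1026, 1088] = true := by
  decide +kernel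

end Vale.Agent.P236X
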