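import Vale.Agent.P236Xf.D17n0
import Vale.Agent.P236Xd.Zs20

/-!
# P236 : a part of the check of the data
-/

namespace Vale.Agent.P236X

set_option maxRecDepth 100000 in
set_option maxHeartbeats 400000 in
theorem df20n0 : P236N.dfU L20 gs20 94 Zs20 20 [0, 1, 2, 3, 4, 5, 6, 7, 8, 9, 10, 11, 12, 13, 14, 15, 16, 17, 18, 19, 20, 21, 22, 23, 64, 65, 66, 67, 68, 69, 70, 71, 72, 73, 74, 75, 76, 77, 78, 79, 80, 81, 82, 83, 84, 128, 129, 130, 131, 132, 133, 134, 135, 136, 137, 138, 139, 140, 192, 193, 194, 195, 196, 197, 198, 199, 200, 201, 256, 257, 258, 259, 260, 261, 262, 512, 513, 514, 515, 516, 517, 518, 519, 520, 521, 576, 577, 578, 579, 580, 581] = true := by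
  decide +kernel

end Vale.Agent.P236X
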