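import Vale.Agent.P236Xf.D0n0
import Vale.Agent.P236Xd.Zs2

/-!
# P236 : a part of the check of the data
-/

namespace Vale.Agent.P236X

set_option maxRecDepth 100000 in
set_option maxHeartbeats 400000 in
theorem df2n0 : P236N.dfU L2 gs2 94 Zs2 2 [0, 3, 4, 14, 66, 68, 76, 129, 133, 192, 195, 198, 200, 258, 320, 324, 325, 326, 513, 577, 642, 705, 707] = true := by
  decide +kernel

end Vale.Agent.P236X
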