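import Vale.Agent.P236Xf.D2n3
import Vale.Agent.P236Xd.Zs3

/-!
# P236 : a part of the check of the data
-/

namespace Vale.Agent.P236X

set_option maxRecDepth 100000 in
set_option maxHeartbeats 400000 in
theorem df3n0 : P236N.dfU L3 gs3 94 Zs3 3 [4, 14, 16, 20, 22, 24, 66, 68, 70, 74, 79, 81, 84, 85, 86, 130, 135, 137, 139, 143, 147, 148, 149, 204, 206, 263, 264, 266, 269, 322, 327, 328, 330, 513, 516, 518, 523, 528, 530, 587, 588, 589, 590, 646, 648, 708, 1028] = true := by
  decide +kernel

end Vale.Agent.P236X
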