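import Vale.Agent.P236Xf.D3n2
import Vale.Agent.P236Xd.Zs4

/-!
# P236 : a part of the check of the data
-/

namespace Vale.Agent.P236X

set_option maxRecDepth 100000 in
set_option maxHeartbeats 400000 in
theorem df4n0 : P236N.dfU L4 gs4 94 Zs4 4 [0, 9, 17, 19, 21, 22, 24, 36, 38, 65, 73, 81, 134, 138, 146, 147, 150, 151, 199, 200, 205, 208, 262, 266, 274, 324, 326, 384, 512, 513, 516, 520, 521, 523, 530, 531, 578, 579, 586, 592, 643, 648, 1025, 1028] = true := by
  decide +kernel

end Vale.Agent.P236X
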