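import Vale.Agent.P236Xf.D4n3
import Vale.Agent.P236Xd.Zs5

/-!
# P236 : a part of the check of the data
-/

namespace Vale.Agent.P236X

set_option maxRecDepth 100000 in
set_option maxHeartbeats 400000 in
theorem df5n0 : P236N.dfU L5 gs5 94 Zs5 5 [1, 4, 7, 15, 21, 22, 23, 24, 28, 31, 32, 33, 35, 36, 37, 47, 67, 68, 72, 75, 89, 91, 96, 97, 130, 131, 138, 142, 143, 144, 151, 156, 192, 194, 200, 202, 212, 256, 257, 271, 322, 323, 325, 386, 387, 518, 519, 527, 583, 586, 588, 591, 641, 643, 646, 649, 705, 708] = true := by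
  decide +kernel

end Vale.Agent.P236X
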