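import Vale.Agent.P236Xf.D5n2
import Vale.Agent.P236Xd.Zs6

/-!
# P236 : a part of the check of the data
-/

namespace Vale.Agent.P236X

set_option maxRecDepth 100000 in
set_option maxHeartbeats 400000 in
theorem df6n0 : P236N.dfU L6 gs6 94 Zs6 6 [1, 5, 8, 13, 14, 17, 19, 21, 25, 26, 28, 30, 32, 34, 38, 42, 43, 44, 46, 68, 71, 76, 77, 80, 89, 91, 92, 93, 95, 96, 99, 128, 129, 132, 133, 135, 137, 141, 143, 146, 150, 192, 193, 195, 196, 207, 209, 267, 321, 327, 329, 384, 512, 515, 517, 519, 521, 524, 579, 582, 585, 586, 588, 642, 646, 647, 649, 705, 706, 707, 1024] = true := by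
  decide +kernel

end Vale.Agent.P236X
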