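import Vale.Agent.P236Xf.D6n1
import Vale.Agent.P236Xd.Zs7

/-!
# P236 : a part of the check of the data
-/

namespace Vale.Agent.P236X

set_option maxRecDepth 100000 in
set_option maxHeartbeats 400000 in
theorem df7n0 : P236N.dfU L7 gs7 94 Zs7 7 [1, 2, 4, 5, 10, 12, 17, 21, 23, 25, 32, 36, 42, 44, 46, 67, 73, 76, 80, 81, 83, 85, 88, 91, 92, 128, 137, 138, 139, 140, 142, 144, 145, 147, 149, 192, 194, 195, 196, 199, 206, 259, 262, 265, 321, 322, 324, 328, 384, 386, 517, 518, 519, 522, 524, 577, 585, 643, 644, 646, 1024] = true := by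
  decide +kernel

end Vale.Agent.P236X
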