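import Vale.Agent.P236Xf.D7n1
import Vale.Agent.P236Xd.Zs8

/-!
# P236 : a part of the check of the data
-/

namespace Vale.Agent.P236X

set_option maxRecDepth 100000 in
set_option maxHeartbeats 400000 in
theorem df8n0 : P236N.dfU L8 gs8 94 Zs8 8 [8, 10, 12, 15, 20, 22, 26, 28, 29, 36, 42, 43, 64, 68, 70, 72, 75, 76, 79, 80, 82, 84, 89, 91, 96, 133, 136, 137, 139, 143, 144, 148, 149, 192, 194, 196, 198, 257, 258, 259, 266, 320, 322, 324, 327, 513, 516, 519, 522, 523, 578, 580, 581, 584, 641, 645, 646, 704, 705, 1024] = true := by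
  decide +kernel

end Vale.Agent.P236X
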