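import Vale.Agent.P236Xf.D8n1
import Vale.Agent.P236Xd.Zs9

/-!
# P236 : a part of the check of the data
-/

namespace Vale.Agent.P236X

set_option maxRecDepth 100000 in
set_option maxHeartbeats 400000 in
theorem df9n0 : P236N.dfU L9 gs9 94 Zs9 9 [2, 3, 4, 11, 13, 15, 17, 19, 22, 24, 26, 27, 29, 31, 33, 35, 39, 66, 67, 76, 78, 83, 84, 91, 99, 129, 131, 135, 140, 143, 147, 149, 152, 199, 204, 258, 262, 264, 265, 323, 324, 325, 326, 512, 514, 515, 516, 518, 522, 524, 525, 576, 577, 579, 580, 584, 640, 641, 646, 705] = true := by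
  decide +kernel

end Vale.Agent.P236X
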